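import Vale.Agent.P263B89.MV

/-!
# P263B, the homology of a join, from the two axes
-/

set_option linter.all false

open Topology Set Vale.Agent.P246.T Vale.Agent.P246.T.FM Vale.Agent.P263.AD.Freu

namespace Vale.Agent.P263B89

variable {X A B : Type} [TopologicalSpace X] [TopologicalSpace A] [TopologicalSpace B]
  {U₁ U₂ : Set X} {n : ℕ}

/-- `f` is onto on the reduced homology in degree `n` -/
def Onto (f : C(A, B)) (n : ℕ) : Prop :=
  ∀ z : Ch n B, RedCyc n z → ∃ y : Ch n A, RedCyc n y ∧ Hg z (push f n y)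

/-- `f` is injective on the reduced homology in degree `n` -/
def Inj (f : C(A, B)) (n : ℕ) : Prop := ∀ y : Ch n A, RedCyc n y → Hg (push f n y) 0 → Hg y 0

theorem Onto.congr {f g : C(A, B)} (h : f.Homotopic g) (hf : Onto f n) : Onto g n := fun z hz => by
  obtain ⟨y, hy, hh⟩ := hf z hz
  exact ⟨y, hy, hh.trans (hg_of_homotopic h hy)⟩

theorem Inj.congr {f g : C(A, B)} (h : f.Homotopic g) (hf : Inj f n) : Inj g n :=
  fun y hy hh => hf y hy ((hg_of_homotopic h hy).trans hh)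

theorem onto_of_sec {f : C(A, B)} {g : C(B, A)} (h : (f.comp g).Homotopic (ContinuousMap.id B)) :
    Onto f n := fun z hz => by
  have := hg_of_homotopic h hz
  rw [push_id, push_comp] at this
  exact ⟨_, redCyc_push g hz, this.symm⟩

theorem inj_of_ret {f : C(A, B)} {g : C(B, A)} (h : (g.comp f).Homotopic (ContinuousMap.id A)) :
    Inj f n := fun y hy hh => by
  have := hg_of_homotopic h hy
  rw [push_id, push_comp] at this
  exact this.symm.trans (hh.push_zero g)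

theorem Onto.comp {f : C(B, X)} {g : C(A, B)} (hf : Onto f n) (hg : Onto g n) :
    Onto (f.comp g) n := fun z hz => by
  obtain ⟨y, hy, h1⟩ := hf z hz
  obtain ⟨x, hx, h2⟩ := hg y hy
  exact ⟨x, hx, h1.trans (push_comp f g n x ▸ h2.push f)⟩

theorem Inj.comp {f : C(B, X)} {g : C(A, B)} (hf : Inj f n) (hg : Inj g n) : Inj (f.comp g) n :=
  fun y hy hh => hg y hy (hf _ (redCyc_push g hy) (push_comp f g n y ▸ hh))

theorem Inj.of_comp {f : C(B, X)} {g : C(A, B)} (h : Inj (f.comp g) n) : Inj g n :=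
  fun y hy hh => h y hy (push_comp f g n y ▸ hh.push_zero f)

theorem Onto.of_comp {f : C(B, X)} {g : C(A, B)} (h : Onto (f.comp g) n) : Onto f n :=
  fun z hz => by
  obtain ⟨y, hy, hh⟩ := h z hz
  exact ⟨_, redCyc_push g hy, push_comp f g n y ▸ hh⟩

theorem Onto.of_inj {f : C(B, X)} {g : C(A, B)} (h : Onto (f.comp g) n) (hf : Inj f n) :
    Onto g n := fun z hz => by
  obtain ⟨y, hy, hh⟩ := h _ (redCyc_push f hz)
  have := hf (z - push g n y) (hz.sub (redCyc_push g hy)) (by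
    have := hh.sub (Hg.refl (push (f.comp g) n y))
    rwa [sub_self, push_comp, ← map_sub] at this)
  refine ⟨y, hy, ?_⟩
  have := this.add (Hg.refl (push g n y))
  rwa [sub_add_cancel, zero_add] at this

variable (α : C(A, ↥(U₁ ∩ U₂))) (β : C(B, ↥(U₁ ∩ U₂)))

/-- `c` comes from the two axes -/
def Ax (c : Ch n ↥(U₁ ∩ U₂)) : Prop :=
  ∃ x y, RedCyc n x ∧ RedCyc n y ∧ Hg c (push α n x + push β n y)

variable {α β}

theorem kills₁ (h0 : ∀ y, RedCyc n y → Hg (push ((j₂ U₁ U₂).comp β) n y) 0)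
    (h : Onto ((j₁ U₁ U₂).comp β) n) : Kills U₁ n := fun w hw => by
  obtain ⟨y, hy, hh⟩ := h w hw
  have a := hh.push (PR.inc U₁)
  have b := (h0 y hy).push_zero (PR.inc U₂)
  rw [push_comp, push_inc_sub] at a b
  exact a.trans b

theorem kills₂ (k : Kills U₁ n) (h : Onto ((j₂ U₁ U₂).comp α) n) : Kills U₂ n := fun w hw => by
  obtain ⟨y, hy, hh⟩ := h w hw
  have a := hh.push (PR.inc U₂)
  have b := k _ (redCyc_push ((j₁ U₁ U₂).comp α) hy)
  rw [push_comp, push_inc_sub] at a b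
  exact a.trans b

theorem Ax.zero {z : Ch (n + 1) X} {c : Ch n ↥(U₁ ∩ U₂)} (hc : Ax α β c) (h : Conn U₁ U₂ z c)
    (h0 : ∀ y, RedCyc n y → Hg (push ((j₂ U₁ U₂).comp β) n y) 0)
    (ha : Inj ((j₂ U₁ U₂).comp α) n) (hb : Inj ((j₁ U₁ U₂).comp β) n) : Hg c 0 := by
  obtain ⟨x, y, hx, hy, e⟩ := hc
  have a := (e.push (j₂ U₁ U₂)).symm.trans h.right
  rw [map_add, ← push_comp, ← push_comp] at a
  have a' := a.sub (h0 y hy)
  rw [add_sub_cancel_right, sub_zero] at a'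
  have b := e.trans (((ha x hx a').push_zero α).add (Hg.refl _))
  rw [zero_add] at b
  have d := (b.push (j₁ U₁ U₂)).symm.trans h.left
  rw [← push_comp] at d
  exact b.trans ((hb y hy d).push_zero β)

/-- the data of a join in the degrees up to `N` -/
structure Jn (α : C(A, ↥(U₁ ∩ U₂))) (β : C(B, ↥(U₁ ∩ U₂))) (N : ℕ) : Prop where
  o₁ : IsOpen U₁
  o₂ : IsOpen U₂
  cov : U₁ ∪ U₂ = univ
  ne : Nonempty ↥(U₁ ∩ U₂)
  nul : ∀ n y, RedCyc n y → Hg (push ((j₂ U₁ U₂).comp β) n y) 0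
  oa : ∀ n ≤ N, Onto ((j₂ U₁ U₂).comp α) n
  ob : ∀ n ≤ N, Onto ((j₁ U₁ U₂).comp β) n
  ia : ∀ n < N, Inj ((j₂ U₁ U₂).comp α) n
  ib : ∀ n < N, Inj ((j₁ U₁ U₂).comp β) n

variable {N : ℕ}

theorem Jn.zero (J : Jn α β N) (hn : n < N) {z : Ch (n + 1) X} {c : Ch n ↥(U₁ ∩ U₂)}
    (h : Conn U₁ U₂ z c) (hc : Ax α β c) : Hg z 0 :=
  have k := kills₁ (J.nul _) (J.ob (n + 1) hn)
  h.zero k (kills₂ k (J.oa _ hn)) (hc.zero h (J.nul _) (J.ia _ hn) (J.ib _ hn))

theorem Jn.rz (J : Jn α β N) (hn : n ≤ N)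
    (h : ∀ m, m + 1 = n → ∀ c : Ch m ↥(U₁ ∩ U₂), RedCyc m c → Ax α β c) : RZ X n := by
  cases n with
  | zero =>
    have k := kills₁ (J.nul _) (J.ob 0 hn)
    exact rz_zero J.cov J.o₁ J.o₂ J.ne.some k (kills₂ k (J.oa _ hn))
  | succ n =>
    intro z hz
    obtain ⟨c, hc⟩ := exists_conn J.o₁ J.o₂ J.cov z hz
    exact (J.zero hn hc (h n rfl c hc.cyc)).exists_bd

theorem Jn.two (J : Jn α β N) (hn : n < N) (h : ∀ c c' : Ch n ↥(U₁ ∩ U₂), RedCyc n c →
    RedCyc n c' → Ax α β c ∨ Ax α β c' ∨ Ax α β (c - c')) (z z' : Ch (n + 1) X)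
    (hz : bd n z = 0) (hz' : bd n z' = 0) : Hg z 0 ∨ Hg z' 0 ∨ Hg z z' := by
  obtain ⟨c, hc⟩ := exists_conn J.o₁ J.o₂ J.cov z hz
  obtain ⟨c', hc'⟩ := exists_conn J.o₁ J.o₂ J.cov z' hz'
  refine (h c c' hc.cyc hc'.cyc).imp (J.zero hn hc) (Or.imp (J.zero hn hc') fun e => ?_)
  have := (J.zero hn (hc.sub hc') e).add (Hg.refl z')
  rwa [sub_add_cancel, zero_add] at this

/-- from the product to the axes -/
theorem ax_of_kun (s : C(A × B, ↥(U₁ ∩ U₂))) (a₀ : A) (b₀ : B) {c : Ch n ↥(U₁ ∩ U₂)}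
    {w : Ch n (A × B)} (hw : RedCyc n w) (e : Hg c (push s n w))
    (h : Hg w (push (⟨fun q => (q.1, b₀), by fun_prop⟩ : C(A × B, A × B)) n w +
      push (⟨fun q => (a₀, q.2), by fun_prop⟩ : C(A × B, A × B)) n w -
      push (ContinuousMap.const (A × B) (a₀, b₀)) n w)) :
    Ax (s.comp ⟨fun a => (a, b₀), by fun_prop⟩) (s.comp ⟨fun b => (a₀, b), by fun_prop⟩) c := by
  refine ⟨push ContinuousMap.fst n w, push ContinuousMap.snd n w, redCyc_push _ hw,
    redCyc_push _ hw, e.trans ?_⟩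
  have := (h.trans ((Hg.refl _).sub (push_const_hg _ hw))).push s
  rw [sub_zero, map_add, ← push_comp, ← push_comp] at this
  rw [← push_comp, ← push_comp]
  exact this

theorem hg_smul {c c' : Ch n X} (h : Hg c c') (m : ℤ) : Hg (m • c) (m • c') := by
  obtain ⟨b, hb⟩ := h
  exact ⟨m • b, by rw [map_smul, hb, smul_sub]⟩

/-- the edge: one class of order two besides the axes -/
theorem tri_of_gen (s : C(A × B, ↥(U₁ ∩ U₂))) (hs : Onto s n) (a₀ : A) (b₀ : B)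
    {w : Ch n (A × B)} (h2 : Hg ((2 : ℤ) • w) 0) (h : ∀ z : Ch n (A × B), RedCyc n z → ∃ m : ℤ,
      Hg z (push (⟨fun q => (q.1, b₀), by fun_prop⟩ : C(A × B, A × B)) n z +
        push (⟨fun q => (a₀, q.2), by fun_prop⟩ : C(A × B, A × B)) n z -
        push (ContinuousMap.const (A × B) (a₀, b₀)) n z + m • w))
    (c c' : Ch n ↥(U₁ ∩ U₂)) (hc : RedCyc n c) (hc' : RedCyc n c') :
    Ax (s.comp ⟨fun a => (a, b₀), by fun_prop⟩) (s.comp ⟨fun b => (a₀, b), by fun_prop⟩) c ∨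
    Ax (s.comp ⟨fun a => (a, b₀), by fun_prop⟩) (s.comp ⟨fun b => (a₀, b), by fun_prop⟩) c' ∨
    Ax (s.comp ⟨fun a => (a, b₀), by fun_prop⟩) (s.comp ⟨fun b => (a₀, b), by fun_prop⟩)
      (c - c') := by
  have ev : ∀ m : ℤ, Even m → Hg (m • w) 0 := by
    rintro _ ⟨r, rfl⟩
    have := hg_smul h2 r
    rwa [smul_zero, smul_smul, mul_two] at this
  obtain ⟨z, hz, e⟩ := hs c hc
  obtain ⟨z', hz', e'⟩ := hs c' hc'
  obtain ⟨m, hm⟩ := h z hz
  obtain ⟨m', hm'⟩ := h z' hz'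
  rcases Int.even_or_odd m with p | p
  · exact .inl (ax_of_kun s a₀ b₀ hz e (by simpa using hm.trans ((Hg.refl _).add (ev m p))))
  rcases Int.even_or_odd m' with p' | p'
  · exact .inr (.inl (ax_of_kun s a₀ b₀ hz' e'
      (by simpa using hm'.trans ((Hg.refl _).add (ev m' p')))))
  refine .inr (.inr (ax_of_kun s a₀ b₀ (hz.sub hz') (map_sub (push s n) z z' ▸ e.sub e') ?_))
  have := (hm.sub hm').sub (ev _ (p.sub_odd p')).symm
  rw [sub_zero] at this
  refine this.trans (Hg.of_eq ?_)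
  rw [map_sub, map_sub, map_sub, sub_smul]
  abel

end Vale.Agent.P263B89
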