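import Vale.Agent.P263B15.Rows
import Vale.Agent.P263B89.Ax
import Vale.Agent.P263.AD.FreuKun

/-!
# P263B, the row `MVH`
-/

set_option linter.all false

open Topology Set Vale.Agent.P246.T Vale.Agent.P246.T.FM Vale.Agent.P263.AD.Freu

namespace Vale.Agent.P263B89

open Vale.Agent.P263B15

variable {X A Y : Type} [TopologicalSpace X] [TopologicalSpace A] [TopologicalSpace Y] {n : ℕ}

theorem kills_of_null {U : Set X} (h : (PR.inc U).Nullhomotopic) (n : ℕ) : Kills U n :=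
  fun w hw => by
  obtain ⟨x, hx⟩ := h
  exact (hg_of_homotopic hx hw).trans (push_const_hg x hw)

theorem paths_null {U : Set X} (h : (PR.inc U).Nullhomotopic) {x y : X} (p q : Path x y)
    (hp : range p ⊆ U) (hq : range q ⊆ U) : p.Homotopic q := by
  obtain ⟨x₀, ⟨F⟩⟩ := h
  have hx : x ∈ U := hp ⟨0, p.source⟩
  have hy : y ∈ U := hp ⟨1, p.target⟩
  let p' : Path (⟨x, hx⟩ : U) ⟨y, hy⟩ :=
    ⟨⟨fun t => ⟨p t, hp ⟨t, rfl⟩⟩, p.continuous.subtype_mk _⟩, Subtype.ext p.source,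
      Subtype.ext p.target⟩
  let q' : Path (⟨x, hx⟩ : U) ⟨y, hy⟩ :=
    ⟨⟨fun t => ⟨q t, hq ⟨t, rfl⟩⟩, q.continuous.subtype_mk _⟩, Subtype.ext q.source,
      Subtype.ext q.target⟩
  have e : p'.map (map_continuous (ContinuousMap.const U x₀)) =
      q'.map (map_continuous (ContinuousMap.const U x₀)) := Path.ext rfl
  exact P178.H948.homotopic_of_homotopy F p' q' (e ▸ Path.Homotopic.refl _)

theorem sc_null {U₁ U₂ : Set X} (h₁ : IsOpen U₁) (h₂ : IsOpen U₂) (hc : U₁ ∪ U₂ = univ)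
    (p₁ : IsPathConnected U₁) (p₂ : IsPathConnected U₂) (p₃ : IsPathConnected (U₁ ∩ U₂))
    (n₁ : (PR.inc U₁).Nullhomotopic) (n₂ : (PR.inc U₂).Nullhomotopic) :
    SimplyConnectedSpace X := by
  obtain ⟨b, hb⟩ := p₃.nonempty
  have key : ∀ W : Set X, IsPathConnected W → b ∈ W → ∀ x ∈ W, ∃ δ : Path b x, range δ ⊆ W := by
    intro W hW hbW x hx
    obtain ⟨γ, hγ⟩ := hW.joinedIn b hbW x hx
    exact ⟨γ, range_subset_iff.2 hγ⟩
  refine P178.H948.simplyConnected_of_cover (fun i : Bool => bif i then U₁ else U₂) ?_ ?_ b ?_ ?_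
  · rintro (_ | _)
    · exact h₂
    · exact h₁
  · intro x
    rcases (hc.symm.subset (mem_univ x) : x ∈ U₁ ∪ U₂) with h | h
    · exact ⟨true, h⟩
    · exact ⟨false, h⟩
  · intro x
    by_cases k₁ : x ∈ U₁
    · by_cases k₂ : x ∈ U₂
      · obtain ⟨δ, hδ⟩ := key (U₁ ∩ U₂) p₃ hb x ⟨k₁, k₂⟩
        refine ⟨δ, ?_⟩
        rintro (_ | _) _
        · exact hδ.trans inter_subset_right
        · exact hδ.trans inter_subset_left
      · obtain ⟨δ, hδ⟩ := key U₁ p₁ hb.1 x k₁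
        refine ⟨δ, ?_⟩
        rintro (_ | _) h
        · exact absurd h k₂
        · exact hδ
    · have k₂ : x ∈ U₂ := (hc.symm.subset (mem_univ x) : x ∈ U₁ ∪ U₂).resolve_left k₁
      obtain ⟨δ, hδ⟩ := key U₂ p₂ hb.2 x k₂
      refine ⟨δ, ?_⟩
      rintro (_ | _) h
      · exact hδ
      · exact absurd h k₁
  · rintro (_ | _) x y p q hp hq
    · exact paths_null n₂ p q hp hq
    · exact paths_null n₁ p q hp hq

theorem pc_dom {K W : Type} [TopologicalSpace K] [TopologicalSpace W] [PathConnectedSpace K]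
    (i : C(K, W)) (r : C(W, K)) (h : (i.comp r).Homotopic (ContinuousMap.id W)) :
    PathConnectedSpace W := by
  obtain ⟨H⟩ := h
  obtain ⟨k⟩ : Nonempty K := inferInstance
  refine ⟨⟨i k⟩, fun x y => ?_⟩
  obtain ⟨γ⟩ := PathConnectedSpace.joined (r x) (r y)
  exact ⟨((H.evalAt x).symm.trans (γ.map i.continuous)).trans (H.evalAt y)⟩

theorem mv_zero {a₀ : A} (D : MVData X A Y a₀) (y₀ : Y) {z : Ch (n + 1) X}
    {c : Ch n ↥(D.U₁ ∩ D.U₂)} (h : Conn D.U₁ D.U₂ z c)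
    (hc : Ax (D.s.comp ⟨fun a => (a, y₀), by fun_prop⟩)
      (D.s.comp ⟨fun b => (a₀, b), by fun_prop⟩) c) : Hg z 0 := by
  obtain ⟨x, y, hx, hy, e⟩ := hc
  refine h.zero (kills_of_null D.n₁ _) (kills_of_null D.n₂ _) ?_
  have a := ((e.push (j₂ D.U₁ D.U₂)).symm.trans h.right).push_zero D.T₂
  have a1 := hg_of_homotopic D.h₂
    (redCyc_push (⟨fun a => (a, y₀), by fun_prop⟩ : C(A, A × Y)) hx)
  have a2 := hg_of_homotopic D.h₂
    (redCyc_push (⟨fun b => (a₀, b), by fun_prop⟩ : C(Y, A × Y)) hy)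
  have e1 : push ContinuousMap.fst n
      (push (⟨fun a => (a, y₀), by fun_prop⟩ : C(A, A × Y)) n x) = x := by
    rw [← push_comp]
    exact push_id n x
  have e2 : Hg (push ContinuousMap.fst n
      (push (⟨fun b => (a₀, b), by fun_prop⟩ : C(Y, A × Y)) n y)) 0 := by
    rw [← push_comp]
    exact push_const_hg a₀ hy
  have a3 := a1.add (a2.trans e2)
  rw [e1, add_zero, push_comp, push_comp, push_comp, push_comp, ← map_add, ← map_add] at a3
  rw [push_comp, push_comp] at a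
  have b := e.trans (((a3.symm.trans a).push_zero _).add (Hg.refl _))
  rw [zero_add] at b
  have d := ((b.push (j₁ D.U₁ D.U₂)).symm.trans h.left).push_zero D.T₁
  rw [← push_comp, ← push_comp] at d
  exact b.trans ((D.inj n y hy d).push_zero _)

theorem mvh (ke : KE) : MVH := by
  intro X A Y _ _ _ a₀ q hq D pA pY hA hY gA gY
  obtain ⟨y₀⟩ : Nonempty Y := inferInstance
  have p₃ : PathConnectedSpace ↥(D.U₁ ∩ D.U₂) := pc_dom D.s D.t D.st
  refine ⟨sc_null D.o₁ D.o₂ D.cov D.p₁ D.p₂ (isPathConnected_iff_pathConnectedSpace.2 p₃) D.n₁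
    D.n₂, fun j hj => ?_, ?_⟩
  · cases j with
    | zero =>
      exact rz_zero D.cov D.o₁ D.o₂ (D.s (a₀, y₀)) (kills_of_null D.n₁ _) (kills_of_null D.n₂ _)
    | succ j =>
      intro z hz
      obtain ⟨c, hc⟩ := exists_conn D.o₁ D.o₂ D.cov z hz
      obtain ⟨w, hw, e⟩ := onto_of_sec D.st c hc.cyc
      exact (mv_zero D y₀ hc (ax_of_kun D.s a₀ y₀ hw e
        (kunP a₀ y₀ q q hA hY j (by omega) w hw))).exists_bd
  · rw [two_mul]
    intro z z' hz hz'
    obtain ⟨c, hc⟩ := exists_conn D.o₁ D.o₂ D.cov z hz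
    obtain ⟨c', hc'⟩ := exists_conn D.o₁ D.o₂ D.cov z' hz'
    obtain ⟨w, hw, e⟩ := onto_of_sec D.st c hc.cyc
    obtain ⟨w', hw', e'⟩ := onto_of_sec D.st c' hc'.cyc
    refine (ke A Y a₀ y₀ q q hA hY gA gY w w' hw hw').imp
      (fun h => mv_zero D y₀ hc (ax_of_kun D.s a₀ y₀ hw e h))
      (Or.imp (fun h => mv_zero D y₀ hc' (ax_of_kun D.s a₀ y₀ hw' e' h)) fun h => ?_)
    have h1 : Hg (w - w') (dec a₀ y₀ (q + q) (w - w')) := by
      have h2 := (h.sub (Hg.refl w')).add (Hg.refl (dec a₀ y₀ (q + q) w))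
      refine (Hg.of_eq ?_).trans (h2.trans (Hg.of_eq ?_))
      · abel
      · unfold dec
        rw [map_sub, map_sub, map_sub]
        abel
    have h3 := (mv_zero D y₀ (hc.sub hc') (ax_of_kun D.s a₀ y₀ (hw.sub hw')
      (map_sub (push D.s (q + q)) w w' ▸ e.sub e') h1)).add (Hg.refl z')
    rwa [sub_add_cancel, zero_add] at h3

end Vale.Agent.P263B89
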