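import Vale.Agent.P263.AD.FreuCh

/-!
# P263B, the connecting map of the Mayer-Vietoris sequence
-/

set_option linter.all false

open Topology Set Vale.Agent.P246.T Vale.Agent.P246.T.FM Vale.Agent.P263.AD.Freu

namespace Vale.Agent.P263B89

variable {X : Type} [TopologicalSpace X] {U₁ U₂ : Set X} {n : ℕ}

/-- the first inclusion -/
abbrev j₁ (U₁ U₂ : Set X) : C(↥(U₁ ∩ U₂), U₁) := sub inter_subset_left

/-- the second inclusion -/
abbrev j₂ (U₁ U₂ : Set X) : C(↥(U₁ ∩ U₂), U₂) := sub inter_subset_right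

/-- `c` is the image of `z` under the connecting map -/
def Conn (U₁ U₂ : Set X) (z : Ch (n + 1) X) (c : Ch n ↥(U₁ ∩ U₂)) : Prop :=
  ∃ (e₁ : Ch (n + 1) U₁) (e₂ : Ch (n + 1) U₂), bd n e₁ = push (j₁ U₁ U₂) n c ∧
    bd n e₂ = push (j₂ U₁ U₂) n c ∧
      Hg z (push (PR.inc U₁) (n + 1) e₁ - push (PR.inc U₂) (n + 1) e₂)

variable {z z' : Ch (n + 1) X} {c c' : Ch n ↥(U₁ ∩ U₂)}

theorem exists_conn (h₁ : IsOpen U₁) (h₂ : IsOpen U₂) (hc : U₁ ∪ U₂ = univ) (z : Ch (n + 1) X)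
    (hz : bd n z = 0) : ∃ c, Conn U₁ U₂ z c := by
  obtain ⟨S, hS⟩ := SD.main X univ U₁ U₂ ⟨U₁, h₁, inter_univ _⟩ ⟨U₂, h₂, inter_univ _⟩
    hc.symm.subset (n + 1) z (mem_univ_con _ _)
  obtain ⟨y, hy, w, hw, hyw⟩ := Submodule.mem_sup.1 hS
  obtain ⟨e₁, rfl⟩ := PR.exists_push_inc hy
  obtain ⟨e₂, rfl⟩ := PR.exists_push_inc hw
  have h3 : push (PR.inc U₁) n (bd n e₁) = push (PR.inc U₂) n (bd n (-e₂)) := by
    rw [map_neg, map_neg, eq_neg_iff_add_eq_zero, ← push_bd, ← push_bd, ← map_add, hyw, S.s_bd, hz,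
      map_zero]
  obtain ⟨c, hc'⟩ := PR.exists_push_inc
    (con_inter (PR.push_inc_mem (bd n e₁)) (h3 ▸ PR.push_inc_mem (bd n (-e₂))))
  refine ⟨c, e₁, -e₂, ?_, ?_, ?_⟩
  · apply PR.push_inc_injective n
    rw [push_inc_sub, hc']
  · apply PR.push_inc_injective n
    rw [push_inc_sub, hc', h3]
  · rw [map_neg, sub_neg_eq_add, hyw]
    exact hg_sd S (n := n + 1) hz

theorem Conn.cyc (h : Conn U₁ U₂ z c) : RedCyc n c := by
  obtain ⟨e₁, -, h1, -⟩ := h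
  apply redCyc_of_push (f := j₁ U₁ U₂) (Set.inclusion_injective inter_subset_left)
  rw [← h1]
  exact redCyc_bd n e₁

theorem Conn.left (h : Conn U₁ U₂ z c) : Hg (push (j₁ U₁ U₂) n c) 0 := by
  obtain ⟨e₁, -, h1, -⟩ := h
  exact h1 ▸ hg_bd e₁

theorem Conn.right (h : Conn U₁ U₂ z c) : Hg (push (j₂ U₁ U₂) n c) 0 := by
  obtain ⟨-, e₂, -, h2, -⟩ := h
  exact h2 ▸ hg_bd e₂

theorem Conn.sub (h : Conn U₁ U₂ z c) (h' : Conn U₁ U₂ z' c') : Conn U₁ U₂ (z - z') (c - c') := by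
  obtain ⟨e₁, e₂, a1, a2, a3⟩ := h
  obtain ⟨f₁, f₂, b1, b2, b3⟩ := h'
  refine ⟨e₁ - f₁, e₂ - f₂, by rw [map_sub, map_sub, a1, b1], by rw [map_sub, map_sub, a2, b2],
    (a3.sub b3).trans (Hg.of_eq ?_)⟩
  rw [map_sub, map_sub]
  abel

/-- the inclusion of `U` is zero on the homology in degree `n` -/
def Kills (U : Set X) (n : ℕ) : Prop := ∀ w : Ch n U, RedCyc n w → Hg (push (PR.inc U) n w) 0

theorem Conn.zero (h : Conn U₁ U₂ z c) (k₁ : Kills U₁ (n + 1)) (k₂ : Kills U₂ (n + 1))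
    (h0 : Hg c 0) : Hg z 0 := by
  obtain ⟨e₁, e₂, a1, a2, a3⟩ := h
  obtain ⟨b, hb⟩ := h0.exists_bd
  have b1 := k₁ (e₁ - push (j₁ U₁ U₂) (n + 1) b) (by
    change bd n _ = 0
    rw [map_sub, push_bd, hb, a1, sub_self])
  have b2 := k₂ (e₂ - push (j₂ U₁ U₂) (n + 1) b) (by
    change bd n _ = 0
    rw [map_sub, push_bd, hb, a2, sub_self])
  have b3 := b1.sub b2
  rw [map_sub, map_sub, push_inc_sub, push_inc_sub, sub_sub_sub_cancel_right, sub_zero] at b3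
  exact a3.trans b3

theorem rz_zero (hc : U₁ ∪ U₂ = univ) (h₁ : IsOpen U₁) (h₂ : IsOpen U₂) (x : ↥(U₁ ∩ U₂))
    (k₁ : Kills U₁ 0) (k₂ : Kills U₂ 0) : RZ X 0 := by
  intro z hz
  obtain ⟨S, hS⟩ := SD.main X univ U₁ U₂ ⟨U₁, h₁, inter_univ _⟩ ⟨U₂, h₂, inter_univ _⟩
    hc.symm.subset 0 z (mem_univ_con _ _)
  obtain ⟨y, hy, w, hw, hyw⟩ := Submodule.mem_sup.1 hS
  obtain ⟨e₁, rfl⟩ := PR.exists_push_inc hy
  obtain ⟨e₂, rfl⟩ := PR.exists_push_inc hw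
  have h0 : wt 0 e₁ + wt 0 e₂ = 0 := by
    have : wt 0 (S.s X 0 z) = 0 := redCyc_sd S hz
    rwa [← hyw, map_add, wt_push, wt_push] at this
  have b1 := k₁ (e₁ - wt 0 e₁ • push (j₁ U₁ U₂) 0 (ksx 0 x)) (by
    change wt 0 _ = 0
    rw [map_sub, map_smul, wt_push, wt_ksx, smul_eq_mul, mul_one, sub_self])
  have b2 := k₂ (e₂ - wt 0 e₂ • push (j₂ U₁ U₂) 0 (ksx 0 x)) (by
    change wt 0 _ = 0
    rw [map_sub, map_smul, wt_push, wt_ksx, smul_eq_mul, mul_one, sub_self])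
  have b3 := b1.add b2
  rw [map_sub, map_sub, map_smul, map_smul, push_inc_sub, push_inc_sub, sub_add_sub_comm, ← add_smul,
    h0, zero_smul, sub_zero, hyw, add_zero] at b3
  exact ((hg_sd S hz).trans b3).exists_bd

end Vale.Agent.P263B89
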